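import Vale.Agent.P281.H713.DefsK

/-!
# P281, T-HKT (helper594): nondegenerate forms which are negative semidefinite on the orthogonal of a
period are negative definite there
-/

open Vale.Agent.P281.H713
open scoped ComplexConjugate

noncomputable section

namespace Vale.Agent.P281.H594.HKT

variable {m : ℕ} {B : Matrix (Fin m) (Fin m) ℝ}

/-- The real bilinear form of `B`. -/
def br (B : Matrix (Fin m) (Fin m) ℝ) (x y : Fin m → ℝ) : ℝ := ∑ i, ∑ j, B i j * x i * y j

theorem bil_ofReal (x y : Fin m → ℝ) :
    bil B (fun i => (x i : ℂ)) (fun i => (y i : ℂ)) = (br B x y : ℂ) := by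
  unfold bil br
  push_cast
  rfl

theorem br_add (x x' y : Fin m → ℝ) : br B (x + x') y = br B x y + br B x' y := by
  unfold br
  rw [← Finset.sum_add_distrib]
  refine Finset.sum_congr rfl fun i _ => ?_
  rw [← Finset.sum_add_distrib]
  refine Finset.sum_congr rfl fun j _ => ?_
  rw [Pi.add_apply]
  ring

theorem br_smul (r : ℝ) (x y : Fin m → ℝ) : br B (r • x) y = r * br B x y := by
  unfold br
  rw [Finset.mul_sum]
  refine Finset.sum_congr rfl fun i _ => ?_
  rw [Finset.mul_sum]
  refine Finset.sum_congr rfl fun j _ => ?_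
  rw [Pi.smul_apply, smul_eq_mul]
  ring

theorem br_symm (hB : B.IsSymm) (x y : Fin m → ℝ) : br B x y = br B y x := by
  unfold br
  rw [Finset.sum_comm]
  refine Finset.sum_congr rfl fun j _ => Finset.sum_congr rfl fun i _ => ?_
  rw [hB.apply i j]
  ring

theorem br_eq_zero (hu : IsUnit B.det) {x : Fin m → ℝ} (h : ∀ y, br B x y = 0) : x = 0 := by
  classical
  refine Matrix.eq_zero_of_vecMul_eq_zero (M := B) hu.ne_zero ?_
  funext j
  have h1 := h (Pi.single j 1)
  unfold br at h1
  show ∑ i, x i * B i j = 0
  rw [← h1]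
  refine Finset.sum_congr rfl fun i _ => ?_
  rw [Finset.sum_eq_single j (fun k _ hk => by simp [hk]) (fun hj => absurd (Finset.mem_univ j) hj),
    Pi.single_eq_same]
  ring

theorem bil_re (x : Fin m → ℝ) (p : Fin m → ℂ) :
    (bil B (fun i => (x i : ℂ)) p).re = br B x fun i => (p i).re := by
  unfold bil br
  rw [Complex.re_sum]
  refine Finset.sum_congr rfl fun i _ => ?_
  rw [Complex.re_sum]
  refine Finset.sum_congr rfl fun j _ => ?_
  simp

theorem bil_im (x : Fin m → ℝ) (p : Fin m → ℂ) :
    (bil B (fun i => (x i : ℂ)) p).im = br B x fun i => (p i).im := by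
  unfold bil br
  rw [Complex.im_sum]
  refine Finset.sum_congr rfl fun i _ => ?_
  rw [Complex.im_sum]
  refine Finset.sum_congr rfl fun j _ => ?_
  simp

theorem bil_symm (hB : B.IsSymm) (x y : Fin m → ℂ) : bil B x y = bil B y x := by
  unfold bil
  rw [Finset.sum_comm]
  refine Finset.sum_congr rfl fun j _ => Finset.sum_congr rfl fun i _ => ?_
  rw [hB.apply i j]
  ring

theorem bil_self_re (p : Fin m → ℂ) :
    (bil B p p).re = br B (fun i => (p i).re) (fun i => (p i).re) -
      br B (fun i => (p i).im) (fun i => (p i).im) := by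
  unfold bil br
  rw [Complex.re_sum, ← Finset.sum_sub_distrib]
  refine Finset.sum_congr rfl fun i _ => ?_
  rw [Complex.re_sum, ← Finset.sum_sub_distrib]
  refine Finset.sum_congr rfl fun j _ => ?_
  simp only [Complex.mul_re, Complex.mul_im, Complex.ofReal_re, Complex.ofReal_im]
  ring

theorem bil_self_im (hB : B.IsSymm) (p : Fin m → ℂ) :
    (bil B p p).im = 2 * br B (fun i => (p i).re) (fun i => (p i).im) := by
  have h1 : (bil B p p).im = br B (fun i => (p i).re) (fun i => (p i).im) +
      br B (fun i => (p i).im) (fun i => (p i).re) := by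
    unfold bil br
    rw [Complex.im_sum, ← Finset.sum_add_distrib]
    refine Finset.sum_congr rfl fun i _ => ?_
    rw [Complex.im_sum, ← Finset.sum_add_distrib]
    refine Finset.sum_congr rfl fun j _ => ?_
    simp only [Complex.mul_re, Complex.mul_im, Complex.ofReal_re, Complex.ofReal_im]
    ring
  rw [h1, br_symm hB (fun i => (p i).im)]
  ring

theorem bil_star_re (p : Fin m → ℂ) :
    (bil B p (star p)).re = br B (fun i => (p i).re) (fun i => (p i).re) +
      br B (fun i => (p i).im) (fun i => (p i).im) := by
  unfold bil br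
  rw [Complex.re_sum, ← Finset.sum_add_distrib]
  refine Finset.sum_congr rfl fun i _ => ?_
  rw [Complex.re_sum, ← Finset.sum_add_distrib]
  refine Finset.sum_congr rfl fun j _ => ?_
  simp only [Pi.star_apply, RCLike.star_def, Complex.mul_re, Complex.mul_im, Complex.ofReal_re,
    Complex.ofReal_im, Complex.conj_re, Complex.conj_im]
  ring

/-- **Nondegenerate and semidefinite is definite.** -/
theorem k3_of {w : Fin m → ℝ} {p : Fin m → ℂ} (hB : B.IsSymm) (hu : IsUnit B.det)
    (iso : bil B p p = 0) (orth : bil B p (fun i => (w i : ℂ)) = 0)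
    (pos : 0 < (bil B p (star p)).re)
    (wpos : 0 < (bil B (fun i => (w i : ℂ)) (fun i => (w i : ℂ))).re)
    (neg : ∀ x : Fin m → ℝ, bil B (fun i => (x i : ℂ)) p = 0 →
      bil B (fun i => (x i : ℂ)) (fun i => (w i : ℂ)) = 0 →
      (bil B (fun i => (x i : ℂ)) (fun i => (x i : ℂ))).re ≤ 0) :
    IsK3Period B w p := by
  refine ⟨hB, iso, orth, pos, Or.inr wpos, fun x hx hxp hxw => ?_⟩
  refine lt_of_le_of_ne (neg x hxp hxw) fun h0 => hx (br_eq_zero hu fun y => ?_)
  set a : Fin m → ℝ := fun i => (p i).re with ha
  set b : Fin m → ℝ := fun i => (p i).im with hb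
  rw [bil_ofReal, Complex.ofReal_re] at h0 wpos
  -- the orthogonality relations
  have hab : br B a b = 0 := by
    have h1 := bil_self_im hB p
    rw [iso, Complex.zero_im] at h1
    linarith
  have haa : br B a a = br B b b := by
    have h1 := bil_self_re (B := B) p
    rw [iso, Complex.zero_re] at h1
    linarith
  have hp : 0 < br B a a := by
    rw [bil_star_re] at pos
    linarith
  have hwp : bil B (fun i => (w i : ℂ)) p = 0 := by rw [bil_symm hB, orth]
  have hwa : br B w a = 0 := by rw [← bil_re, hwp, Complex.zero_re]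
  have hwb : br B w b = 0 := by rw [← bil_im, hwp, Complex.zero_im]
  have hxa : br B x a = 0 := by rw [← bil_re, hxp, Complex.zero_re]
  have hxb : br B x b = 0 := by rw [← bil_im, hxp, Complex.zero_im]
  have hxw' : br B x w = 0 := by
    rw [bil_ofReal] at hxw
    exact_mod_cast hxw
  -- the projection of `y`
  set α := br B y w / br B w w with hα
  set β := br B y a / br B a a with hβ
  set γ := br B y b / br B b b with hγ
  have hbb : br B b b ≠ 0 := by
    rw [← haa]
    exact hp.ne'
  set y' : Fin m → ℝ := y + ((-α) • w + ((-β) • a + (-γ) • b)) with hy'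
  have e : ∀ z, br B y' z = br B y z - α * br B w z - β * br B a z - γ * br B b z := by
    intro z
    rw [hy', br_add, br_add, br_add, br_smul, br_smul, br_smul]
    ring
  have ew : br B y' w = 0 := by
    rw [e, br_symm hB a w, br_symm hB b w, hwa, hwb, hα]
    field_simp
    ring
  have ea : br B y' a = 0 := by
    rw [e, hwa, br_symm hB b a, hab, hβ]
    field_simp
    ring
  have eb : br B y' b = 0 := by
    rw [e, hwb, hab, hγ]
    field_simp
    ring
  have ex : br B y' x = br B x y := by
    rw [e, br_symm hB w x, br_symm hB a x, br_symm hB b x, hxw', hxa, hxb, br_symm hB y x]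
    ring
  have hz : ∀ r : ℝ, br B (x + r • y') (x + r • y') ≤ 0 := by
    intro r
    have h1 : ∀ z, br B (x + r • y') z = br B x z + r * br B y' z := fun z => by
      rw [br_add, br_smul]
    have h2 := neg (x + r • y') ?_ ?_
    · rwa [bil_ofReal, Complex.ofReal_re] at h2
    · apply Complex.ext
      · rw [bil_re, h1]
        show br B x a + r * br B y' a = 0
        rw [hxa, ea]
        ring
      · rw [bil_im, h1]
        show br B x b + r * br B y' b = 0
        rw [hxb, eb]
        ring
    · rw [bil_ofReal, h1, hxw', ew]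
      simp
  have hq : ∀ r : ℝ, 0 ≤ (-br B y' y') * (r * r) + (-(2 * br B x y)) * r + 0 := by
    intro r
    have h1 := hz r
    have h2 : br B (x + r • y') (x + r • y') = 2 * br B x y * r + br B y' y' * (r * r) := by
      have h5 : ∀ u v z : Fin m → ℝ, br B (u + r • v) z = br B u z + r * br B v z := fun u v z => by
        rw [br_add, br_smul]
      rw [h5 x y' (x + r • y'), br_symm hB x (x + r • y'), br_symm hB y' (x + r • y'), h5 x y' x,
        h5 x y' y', h0, ex, br_symm hB x y', ex]
      ring
    rw [h2] at h1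
    linarith
  have h3 := discrim_le_zero hq
  unfold discrim at h3
  have h4 : (br B x y) ^ 2 ≤ 0 := by nlinarith
  exact pow_eq_zero_iff (two_ne_zero) |>.1 (le_antisymm h4 (sq_nonneg _))

end Vale.Agent.P281.H594.HKT
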