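import Vale.Agent.P281.H594.HKT.Th
import Vale.Agent.P281.H594.HKT.K3

/-!
# P281, T-HKT (helper594): calculus of `bT`
-/

open Set Filter Metric MeasureTheory Vale.Agent.P272.K Vale.Agent.P281.H713
open scoped Topology ContDiff ComplexConjugate ComplexOrder

noncomputable section

namespace Vale.Agent.P281.H594.HKT

open Vale.Agent.P281.H64.TK Vale.Agent.P281.H64.TK.TS Vale.Agent.P281.H83.HK
open Vale.Agent.P281.H83.HKT
open Vale.Agent.P281.H864.HK (Wint cont_W W_eq)
open Vale.Agent.P281.H594.HK (cl2_cont cl2_sum)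

variable {a d : ℕ}

/-! ### Pointwise -/

theorem lst_upd (hd : 0 < d) (u : Matrix (Fin a) (Fin d) ℂ) (x x' y c : L2 d) :
    lst u x y c = Function.update (lst u x' y c) (⟨0, hd⟩ : Fin d) x := by
  funext k
  by_cases h : k = ⟨0, hd⟩
  · subst h
    rw [Function.update_self]
    simp [lst]
  · rw [Function.update_of_ne h]
    have h0 : k.val ≠ 0 := fun h0 => h (Fin.ext h0)
    simp [lst, h0]

theorem W4_add (hd : 0 < d) (u : Matrix (Fin a) (Fin d) ℂ) (x x' y c : L2 d) :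
    W4 u (x + x') y c = W4 u x y c + W4 u x' y c := by
  rw [W4, W4, W4, W_eq, W_eq, W_eq, lst_upd hd u (x + x') 0, lst_upd hd u x 0, lst_upd hd u x' 0,
    H864.HK.W_add]

theorem W4_smul (hd : 0 < d) (r : ℂ) (u : Matrix (Fin a) (Fin d) ℂ) (x y c : L2 d) :
    W4 u (r • x) y c = r * W4 u x y c := by
  rw [W4, W4, W_eq, W_eq, lst_upd hd u (r • x) 0, lst_upd hd u x 0, H864.HK.W_smul]

theorem lst_swap (hd : 1 < d) (u : Matrix (Fin a) (Fin d) ℂ) (x y c : L2 d) :
    (fun i => lst u x y c (Equiv.swap ⟨0, by omega⟩ ⟨1, hd⟩ i)) = lst u y x c := by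
  funext i
  by_cases h0 : i = ⟨0, by omega⟩
  · subst h0
    rw [Equiv.swap_apply_left]
    simp [lst]
  by_cases h1 : i = ⟨1, hd⟩
  · subst h1
    rw [Equiv.swap_apply_right]
    simp [lst]
  rw [Equiv.swap_apply_of_ne_of_ne h0 h1]
  have h0' : i.val ≠ 0 := fun h => h0 (Fin.ext h)
  have h1' : i.val ≠ 1 := fun h => h1 (Fin.ext h)
  simp [lst, h0', h1']

theorem W4_comm (hd : 1 < d) (u : Matrix (Fin a) (Fin d) ℂ) (x y c : L2 d) :
    W4 u x y c = W4 u y x c := by
  rw [W4, W4, W_eq, W_eq, ← lst_swap hd u x y c]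
  exact (H864.HK.W_perm _ _).symm

theorem W4_zero (hd : 0 < d) (u : Matrix (Fin a) (Fin d) ℂ) (y c : L2 d) : W4 u 0 y c = 0 := by
  have h := W4_smul hd 0 u (0 : L2 d) y c
  have h0 : ((0 : ℂ) • (0 : L2 d)) = 0 := by
    ext u v
    simp
  rwa [h0, zero_mul] at h

theorem W4_sum (hd : 0 < d) {ι : Type} (s : Finset ι) (u : Matrix (Fin a) (Fin d) ℂ)
    (x : ι → L2 d) (y c : L2 d) : W4 u (∑ k ∈ s, x k) y c = ∑ k ∈ s, W4 u (x k) y c := by
  classical
  induction s using Finset.induction_on with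
  | empty => simp [W4_zero hd]
  | insert k s hk ih => rw [Finset.sum_insert hk, Finset.sum_insert hk, W4_add hd, ih]

theorem W4_conj {u : Matrix (Fin a) (Fin d) ℂ} {x y c x' y' c' : L2 d}
    (hx : ∀ p q, x' p q = conj (x p q)) (hy : ∀ p q, y' p q = conj (y p q))
    (hc : ∀ p q, c' p q = conj (c p q)) : W4 u x' y' c' = conj (W4 u x y c) := by
  rw [W4, W4, W_eq, W_eq]
  refine H864.HK.W_conj fun i p q => ?_
  unfold lst
  split_ifs
  · exact hx p q
  · exact hy p q
  · exact (Complex.conj_eq_iff_im.2 (thj_im _ _ p q)).symm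
  · exact hc p q

/-! ### The integral -/

section
variable {E Γ : Type} [TopologicalSpace E] [Group Γ] [MulAction Γ E] {S : Sheets d E Γ}
variable {u : Fin S.N → Cm d → Matrix (Fin a) (Fin d) ℂ} {x x' y y' c : Fin S.N → Cm d → L2 d}

/-- The list of the forms. -/
def lstF (u : Fin S.N → Cm d → Matrix (Fin a) (Fin d) ℂ) (x y c : Fin S.N → Cm d → L2 d)
    (k : Fin d) : Fin S.N → Cm d → L2 d := fun i z => lst (u i z) (x i z) (y i z) (c i z) k

theorem lstF_ind {P : (Fin S.N → Cm d → L2 d) → Prop} (hx : P x) (hy : P y) (hc : P c)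
    (ht : ∀ j, P (fun i z => thj (u i z) j)) (k : Fin d) : P (lstF u x y c k) := by
  by_cases h0 : k.val = 0
  · have h : lstF u x y c k = x := by
      funext i z
      simp [lstF, lst, h0]
    rwa [h]
  by_cases h1 : k.val = 1
  · have h : lstF u x y c k = y := by
      funext i z
      simp [lstF, lst, h1]
    rwa [h]
  by_cases h2 : k.val - 2 < a
  · have h : lstF u x y c k = fun i z => thj (u i z) ⟨k.val - 2, h2⟩ := by
      funext i z
      simp [lstF, lst, h0, h1, h2]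
    rw [h]
    exact ht _
  · have h : lstF u x y c k = c := by
      funext i z
      simp [lstF, lst, h0, h1, h2]
    rwa [h]

theorem lstF_cl2 (hu : Hol1 S u) (hx : Cl2 S x) (hy : Cl2 S y) (hc : Cl2 S c) (k : Fin d) :
    Cl2 S (lstF u x y c k) :=
  lstF_ind (P := fun x => Cl2 S x) hx hy hc (fun j => thj_cl2 hu j) k

theorem bT_wint (u : Fin S.N → Cm d → Matrix (Fin a) (Fin d) ℂ) (x y c : Fin S.N → Cm d → L2 d) :
    bT S u x y c = Wint S (lstF u x y c) := by
  unfold bT Wint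
  congr 1
  funext i z
  rw [W4, W_eq]
  rfl

theorem W4_cont (hu : Hol1 S u) (i : Fin S.N) {x y c : Cm d → L2 d}
    (hx : ContinuousOn x (ball 0 3)) (hy : ContinuousOn y (ball 0 3))
    (hc : ContinuousOn c (ball 0 3)) :
    ContinuousOn (fun z => W4 (u i z) (x z) (y z) (c z)) (ball 0 3) := by
  have h : ContinuousOn (fun z => H864.HK.W fun k => lst (u i z) (x z) (y z) (c z) k)
      (ball 0 3) := by
    refine cont_W fun k => ?_
    unfold lst
    split_ifs
    · exact hx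
    · exact hy
    · exact cl2_cont (thj_cl2 hu _) i
    · exact hc
  refine h.congr fun z _ => ?_
  rw [W4, W_eq]

theorem bT_comm (hd : 1 < d) (u : Fin S.N → Cm d → Matrix (Fin a) (Fin d) ℂ)
    (x y c : Fin S.N → Cm d → L2 d) : bT S u x y c = bT S u y x c := by
  unfold bT
  congr 1
  funext i z
  exact W4_comm hd _ _ _ _

theorem bT_congr [Subsingleton Γ] (h : ∀ i, ∀ z ∈ ball (0 : Cm d) 3, x i z = x' i z)
    (h' : ∀ i, ∀ z ∈ ball (0 : Cm d) 3, y i z = y' i z) : bT S u x y c = bT S u x' y' c :=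
  TS.int_congr S fun i z hz => by rw [h i z hz, h' i z hz]

theorem bT_add (hd : 0 < d) (hu : Hol1 S u) (h : ∀ i, ContinuousOn (x i) (ball 0 3))
    (h' : ∀ i, ContinuousOn (x' i) (ball 0 3)) (hy : ∀ i, ContinuousOn (y i) (ball 0 3))
    (hc : ∀ i, ContinuousOn (c i) (ball 0 3)) :
    bT S u (fun i z => x i z + x' i z) y c = bT S u x y c + bT S u x' y c := by
  unfold bT
  rw [← TS.int_add S (fun i => W4_cont hu i (h i) (hy i) (hc i))
    (fun i => W4_cont hu i (h' i) (hy i) (hc i))]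
  congr 1
  funext i z
  exact W4_add hd _ _ _ _ _

theorem bT_smul (hd : 0 < d) (r : ℂ) (u : Fin S.N → Cm d → Matrix (Fin a) (Fin d) ℂ)
    (x y c : Fin S.N → Cm d → L2 d) : bT S u (fun i z => r • x i z) y c = r * bT S u x y c := by
  unfold bT
  rw [← TS.int_mul]
  congr 1
  funext i z
  exact W4_smul hd _ _ _ _ _

theorem bT_sum (hd : 0 < d) (hu : Hol1 S u) {n : ℕ} (r : Fin n → ℂ)
    {e : Fin n → Fin S.N → Cm d → L2 d} (h : ∀ k i, ContinuousOn (e k i) (ball 0 3))
    (hy : ∀ i, ContinuousOn (y i) (ball 0 3)) (hc : ∀ i, ContinuousOn (c i) (ball 0 3)) :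
    bT S u (fun i z => ∑ k, r k • e k i z) y c = ∑ k, r k * bT S u (e k) y c := by
  have h1 : bT S u (fun i z => ∑ k, r k • e k i z) y c =
      ∑ k, S.int (fun i z => r k * W4 (u i z) (e k i z) (y i z) (c i z)) := by
    rw [← TS.int_sum S Finset.univ (fun k i z => r k * W4 (u i z) (e k i z) (y i z) (c i z))
      (fun k i => continuousOn_const.mul (W4_cont hu i (h k i) (hy i) (hc i)))]
    unfold bT
    congr 1
    funext i z
    rw [W4_sum hd]
    exact Finset.sum_congr rfl fun k _ => W4_smul hd _ _ _ _ _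
  rw [h1]
  exact Finset.sum_congr rfl fun k _ => TS.int_mul S _ _

theorem bT_im [Subsingleton Γ] (hx : Real2 S x) (hy : Real2 S y) (hc : Real2 S c) : (bT S u x y c).im = 0 := by
  unfold bT
  rw [TS.int_real S fun i z hz => ?_, Complex.ofReal_im]
  have h1 : W4 (u i z) (x i z) (y i z) (c i z) = conj (W4 (u i z) (x i z) (y i z) (c i z)) :=
    W4_conj (fun p q => (Complex.conj_eq_iff_im.2 (hx i z hz p q)).symm)
      (fun p q => (Complex.conj_eq_iff_im.2 (hy i z hz p q)).symm)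
      (fun p q => (Complex.conj_eq_iff_im.2 (hc i z hz p q)).symm)
  exact Complex.conj_eq_iff_im.1 h1.symm

variable [Subsingleton Γ] [ContinuousConstSMul Γ E]

theorem bT_exact (hd : 0 < d) (hu : Hol1 S u) (h : Exact S x) (hy : Cl2 S y) (hc : Cl2 S c) :
    bT S u x y c = 0 := by
  rw [bT_wint]
  have h1 : ∀ k : Fin d, k ≠ ⟨0, hd⟩ → lstF u x y c k = lstF u y y c k := by
    intro k hk
    have h0 : k.val ≠ 0 := fun h0 => hk (Fin.ext h0)
    funext i z
    simp [lstF, lst, h0]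
  refine H864.HK.wint_exact (⟨0, hd⟩ : Fin d) (fun k hk => ?_) ?_
  · rw [h1 k hk]
    exact lstF_cl2 hu hy hy hc k
  · have h2 : lstF u x y c (⟨0, hd⟩ : Fin d) = x := by
      funext i z
      simp [lstF, lst]
    rw [h2]
    exact h

theorem bT_exp (hd : 0 < d) (hu : Hol1 S u) {n : ℕ} (M : Mark2 S n) (hx : Cl2 S x) (hy : Cl2 S y)
    (hc : Cl2 S c) : bT S u x y c = ∑ k, M.cl x k * bT S u (M.b k) y c := by
  have h1 := M.ex x hx
  have h2 := bT_exact hd hu h1 hy hc
  have hs := cl2_sum (M.cl x) M.closed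
  have h3 : bT S u x y c = bT S u (fun i z => (x i z - ∑ k, M.cl x k • M.b k i z) +
      ∑ k, M.cl x k • M.b k i z) y c := bT_congr (fun i z _ => by abel) fun i z _ => rfl
  have hdiff : ∀ i, ContinuousOn (fun z => x i z - ∑ k, M.cl x k • M.b k i z) (ball 0 3) := fun i =>
    cl2_cont (H624.TS.cl2_sub hx hs) i
  rw [h3, bT_add hd hu hdiff (cl2_cont hs) (cl2_cont hy) (cl2_cont hc), h2, zero_add,
    bT_sum hd hu _ (fun k => cl2_cont (M.closed k)) (cl2_cont hy) (cl2_cont hc)]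

omit [Subsingleton Γ] [ContinuousConstSMul Γ E] in
theorem bil_dot {m : ℕ} (B : Matrix (Fin m) (Fin m) ℝ) (x y : Fin m → ℂ) :
    bil B x y = x ⬝ᵥ (B.map Complex.ofReal).mulVec y := by
  unfold bil
  rw [dotProduct]
  refine Finset.sum_congr rfl fun i _ => ?_
  rw [Matrix.mulVec, dotProduct, Finset.mul_sum]
  refine Finset.sum_congr rfl fun j _ => ?_
  rw [Matrix.map_apply]
  ring

omit [Subsingleton Γ] [ContinuousConstSMul Γ E] in
theorem bil_pull {m n : ℕ} (B : Matrix (Fin m) (Fin m) ℝ) (J : Matrix (Fin m) (Fin n) ℤ)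
    (x y : Fin n → ℂ) :
    bil ((J.map (Int.cast : ℤ → ℝ)).transpose * B * J.map (Int.cast : ℤ → ℝ)) x y =
      bil B ((J.map (Int.cast : ℤ → ℂ)).mulVec x) ((J.map (Int.cast : ℤ → ℂ)).mulVec y) := by
  have h1 : ((J.map (Int.cast : ℤ → ℝ)).transpose * B * J.map (Int.cast : ℤ → ℝ)).map
      Complex.ofReal = (J.map (Int.cast : ℤ → ℂ)).transpose * B.map Complex.ofReal *
        J.map (Int.cast : ℤ → ℂ) := by
    have h2 : (J.map (Int.cast : ℤ → ℝ)).map Complex.ofReal = J.map (Int.cast : ℤ → ℂ) := by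
      ext i j
      simp
    rw [← h2]
    ext i j
    simp only [Matrix.map_apply, Matrix.mul_apply, Matrix.transpose_apply, Complex.ofReal_sum,
      Complex.ofReal_mul]
  rw [bil_dot, bil_dot, h1, Matrix.mul_assoc, ← Matrix.mulVec_mulVec, Matrix.dotProduct_mulVec,
    Matrix.vecMul_transpose, Matrix.mulVec_mulVec]

/-- **The form on classes.** -/
theorem bT_cl (hd : 1 < d) (hu : Hol1 S u) {κ : ℝ} (hκ : κ ≠ 0) {m : ℕ}
    {B : Matrix (Fin m) (Fin m) ℝ} (T : MarkT S u κ c B) (hx : Cl2 S x) (hy : Cl2 S y)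
    (hc : Cl2 S c) (hr : Real2 S c) :
    bT S u x y c = κ * bil B (T.cls x) (T.cls y) := by
  have hd0 : 0 < d := by omega
  unfold MarkT.cls
  rw [← bil_pull, bT_exp hd0 hu T.M hx hy hc]
  unfold bil
  rw [Finset.mul_sum]
  refine Finset.sum_congr rfl fun k _ => ?_
  rw [bT_comm hd, bT_exp hd0 hu T.M hy (T.M.closed k) hc, Finset.mul_sum, Finset.mul_sum]
  refine Finset.sum_congr rfl fun l _ => ?_
  have h1 : bT S u (T.M.b l) (T.M.b k) c = (κ : ℂ) *
      (((T.J.map (Int.cast : ℤ → ℝ)).transpose * B * T.J.map (Int.cast : ℤ → ℝ)) k l : ℝ) := by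
    rw [← T.form k l, bT_comm hd]
    apply Complex.ext
    · rw [← Complex.ofReal_mul, Complex.ofReal_re]
      field_simp
    · rw [← Complex.ofReal_mul, Complex.ofReal_im, bT_im (T.M.real k) (T.M.real l) hr]
  rw [h1]
  ring

end

end Vale.Agent.P281.H594.HKT
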