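import Vale.Agent.P281.H83.HKT.Spec
import Vale.Agent.P281.H594.HK.GrK2

/-!
# P281, T-HKT (helper594): `FrameStmt`
-/

open Set Filter Metric
open scoped Topology

noncomputable section

namespace Vale.Agent.P281.H594.HKT

open Vale.Agent.P281.H64.TK Vale.Agent.P281.H64.TK.TS Vale.Agent.P281.H83.HK
open Vale.Agent.P281.H83.HKT
open Vale.Agent.P281.H594.HK (V2 grauertK an_iff)
open Vale.Agent.P272.K (Cm)

section
variable {d h : ℕ} {E Γ : Type} [TopologicalSpace E] [Group Γ] [MulAction Γ E] {S : Sheets d E Γ}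

theorem to_bas {b : Fin h → Fin S.N → Cm d → Matrix (Fin d) (Fin d) ℂ} (hb : Bas2 S b) :
    H594.HK.Bas2 S (κ := Fin h) b :=
  ⟨hb.form, hb.indep, hb.span⟩

theorem of_bas {b : Fin h → Fin S.N → Cm d → Matrix (Fin d) (Fin d) ℂ}
    (hb : H594.HK.Bas2 S (κ := Fin h) b) : Bas2 S b :=
  ⟨hb.form, hb.indep, hb.span⟩

end

/-- **FRAME** -/
theorem frame : FrameStmt := by
  intro p d h E Γ _ _ _ _ _ _ _ 𝓕 hd h1 t₀ ht₀
  by_cases hN : Nonempty (Fin 𝓕.N)
  · obtain ⟨i₀⟩ := hN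
    have hG := grauertK 𝓕 (κ := Fin h) hd
      (fun t ht => by
        obtain ⟨b, hb⟩ := h1 t ht
        exact ⟨b, to_bas hb⟩) ht₀ i₀
    rw [Fintype.card_fin] at hG
    obtain ⟨T', u, e, hT', hT'o, h₀, hu, hB⟩ := hG
    refine ⟨T', u, hT', hT'o, h₀, fun r i t ht z hz j k => ?_, fun t ht htT => ?_⟩
    · exact an_iff.1 (hu r i t ht z hz) j k
    · exact of_bas (hB t ht htT).2.1
  · rw [not_nonempty_iff] at hN
    refine ⟨𝓕.T, fun _ i => hN.elim i, subset_rfl, 𝓕.isOpen, ht₀, fun _ i => hN.elim i,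
      fun t ht _ => ?_⟩
    obtain ⟨b, hb⟩ := h1 t ht
    have h2 : (fun (r : Fin h) (i : Fin 𝓕.N) (z : Cm d) =>
        ((hN.elim i : Cm p × Cm d → Matrix (Fin d) (Fin d) ℂ)) (t, z)) = b := by
      funext r i
      exact hN.elim i
    exact h2 ▸ hb

end Vale.Agent.P281.H594.HKT
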