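import Vale.Agent.P281.H83.HKT.Spec
import Vale.Agent.P281.H22.HKT.Cnt
import Vale.Agent.P281.H511.HKT.Alg

/-!
# P281, T-HKT (helper594): `GenFamStmt`
-/

open Set Filter Metric
open scoped Topology

noncomputable section

namespace Vale.Agent.P281.H594.HKT

open Vale.Agent.P281.H64.TK Vale.Agent.P281.H64.TK.TS Vale.Agent.P281.H83.HK
open Vale.Agent.P281.H83.HKT
open Vale.Agent.P281.H22.HKT (genU_card genU_of)
open Vale.Agent.P281.H834.HKT (hol2_sum)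
open Vale.Agent.P281.H511.HKT (analyticAt_dt)
open Vale.Agent.P272.K (Cm)

/-- **GENFAM** -/
theorem genFam (hFin : Fin2Stmt) (hH : HodgeConstStmt) (hFr : FrameStmt) : GenFamStmt := by
  intro p d a E Γ _ _ _ _ _ _ _ 𝓕 W T₀ u t₀ ht₀ had hKF hT₀ hT₀o h₀ hu h1 hs₀
  have hd : 0 < d := by omega
  have had' : a < d := by omega
  obtain ⟨s₀, hs₀⟩ := hs₀
  obtain ⟨h, b₀, hb₀⟩ := hFin d E Γ (𝓕.at t₀ ht₀) (fibW W t₀) (by omega)
    (H603.K.kah_fib hKF ht₀)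
  have hcard := genU_card had' hs₀ hb₀
  have hall := fun t ht => hH p d h E Γ 𝓕 W (by omega) hKF t₀ ht₀ t ht ⟨b₀, hb₀⟩
  obtain ⟨T₁, b, hT₁, hT₁o, h₁, hb, hB⟩ := hFr p d h E Γ 𝓕 hd hall t₀ ht₀
  obtain ⟨c, hc⟩ := (hB t₀ ht₀ h₁).span s₀ hs₀.form
  obtain ⟨i₀, z₀, hz₀, hne⟩ := hs₀.ne
  set s : Fin 𝓕.N → Cm p × Cm d → Matrix (Fin d) (Fin d) ℂ := fun i q => ∑ k, c k • b k i q with hs
  have hsan : ∀ i, ∀ t ∈ T₁, ∀ z ∈ ball (0 : Cm d) 3, ∀ j k,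
      AnalyticAt ℂ (fun q => s i q j k) (t, z) := by
    intro i t ht z hz j k
    have h2 : (fun q => s i q j k) = fun q => ∑ r, c r * b r i q j k := by
      funext q
      simp only [hs, Matrix.sum_apply, Matrix.smul_apply, smul_eq_mul]
    rw [h2]
    exact Finset.analyticAt_fun_sum _ fun r _ => analyticAt_const.mul (hb r i t ht z hz j k)
  have hcont : ContinuousAt (fun t => dt (u i₀ (t, z₀)) (s i₀ (t, z₀))) t₀ := by
    have h2 : AnalyticAt ℂ (fun q => dt (u i₀ q) (s i₀ q)) (t₀, z₀) :=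
      analyticAt_dt (fun j k => hu i₀ t₀ h₀ z₀ hz₀ j k) (fun j k => hsan i₀ t₀ h₁ z₀ hz₀ j k)
    exact ContinuousAt.comp (g := fun q => dt (u i₀ q) (s i₀ q)) (f := fun t : Cm p => (t, z₀))
      h2.continuousAt (by fun_prop)
  have hne' : dt (u i₀ (t₀, z₀)) (s i₀ (t₀, z₀)) ≠ 0 := by
    have h2 : s i₀ (t₀, z₀) = s₀ i₀ z₀ := (hc i₀ z₀ hz₀).symm
    rw [h2]
    exact hne
  have hop : ∀ᶠ t in 𝓝 t₀, dt (u i₀ (t, z₀)) (s i₀ (t, z₀)) ≠ 0 ∧ t ∈ T₀ ∧ t ∈ T₁ :=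
    Filter.Eventually.and (hcont.eventually_ne hne')
      (Filter.Eventually.and (hT₀o.mem_nhds h₀) (hT₁o.mem_nhds h₁))
  obtain ⟨T', hT', hT'o, h0'⟩ := _root_.mem_nhds_iff.1 hop
  refine ⟨T', s, fun t ht => (hT' ht).2.1, hT'o, h0',
    fun i t ht z hz j k => hu i t (hT' ht).2.1 z hz j k,
    fun i t ht z hz j k => hsan i t (hT' ht).2.2 z hz j k, fun t ht htT => ?_⟩
  obtain ⟨k1, k2, k3⟩ := hT' htT
  obtain ⟨k4, k5⟩ := h1 t ht k2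
  exact genU_of had' k4 k5 (hol2_sum Finset.univ (fun k _ => (hB t ht k3).form k) c)
    ⟨i₀, z₀, hz₀, k1⟩ (hB t ht k3) hcard

end Vale.Agent.P281.H594.HKT
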