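import Vale.Agent.P281.H83.HKT.Spec
import Vale.Agent.P281.H594.HKT.BT
import Vale.Agent.P281.H594.HK.Per

/-!
# P281, T-HKT (helper594): `BilTStmt` and `PerTStmt`
-/

open Set Filter Metric MeasureTheory Vale.Agent.P272.K Vale.Agent.P281.H713
open scoped Topology ContDiff ComplexConjugate ComplexOrder

noncomputable section

namespace Vale.Agent.P281.H594.HKT

open Vale.Agent.P281.H64.TK Vale.Agent.P281.H64.TK.TS Vale.Agent.P281.H83.HK
open Vale.Agent.P281.H83.HKT
open Vale.Agent.P281.H594.HK (cl2_cont cl2_sum)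

/-- **BIL** -/
theorem bilT : BilTStmt := by
  intro a d E Γ _ _ _ _ _ _ S u κ c m B T x y had hu hc hr hx hy
  have hd : 1 < d := by omega
  have hd0 : 0 < d := by omega
  unfold MarkT.cls
  rw [← bil_pull, bT_exp hd0 hu T.M hx hy hc]
  unfold bil
  rw [Finset.sum_div]
  refine Finset.sum_congr rfl fun k _ => ?_
  rw [bT_comm hd, bT_exp hd0 hu T.M hy (T.M.closed k) hc, Finset.mul_sum, Finset.sum_div]
  refine Finset.sum_congr rfl fun l _ => ?_
  have h1 : (((((T.J.map (Int.cast : ℤ → ℝ)).transpose * B * T.J.map (Int.cast : ℤ → ℝ)) k l : ℝ)) :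
      ℂ) = bT S u (T.M.b l) (T.M.b k) c / κ := by
    rw [← T.form k l, bT_comm hd]
    push_cast
    congr 1
    apply Complex.ext
    · simp
    · rw [Complex.ofReal_im, bT_im (T.M.real l) (T.M.real k) hr]
  rw [h1]
  ring

/-- **PER** -/
theorem perT (hI : IndTStmt) (hP : PosTStmt) (hB : BilTStmt) (hF : FormsStmt) : PerTStmt := by
  intro a d E Γ _ _ _ _ _ _ _ S w u κ s m B T had hw hg hκ
  have hd : 1 < d := by omega
  have hd0 : 0 < d := by omega
  obtain ⟨f1, f2, f3⟩ := hF d E Γ S hd0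
  have hcs := f1 s hg.form
  obtain ⟨hcw, hrw⟩ := f2 w hw
  have hcc := f3 _ hcs
  obtain ⟨p0, p1, p2, p3, -⟩ := hP a d E Γ S w u s had hw hg
  have hbil : ∀ x y, Cl2 S x → Cl2 S y → bil B (T.cls x) (T.cls y) = bT S u x y (kw w) / κ :=
    fun x y hx hy => hB a d E Γ S u κ (kw w) m B T x y had hg.one hcw hrw hx hy
  -- conjugation
  have hcj : T.cls (cjs (ts s)) = star (T.cls (ts s)) := by
    unfold MarkT.cls
    rw [H594.HK.cl_cjs T.M hcs]
    funext k
    simp only [Matrix.mulVec, dotProduct, Pi.star_apply, star_sum, star_mul', Matrix.map_apply,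
      RCLike.star_def, map_intCast]
  -- real classes
  have hkc : (fun k => ((T.clr (kw w) k : ℝ) : ℂ)) = T.cls (kw w) := by
    have h1 := H594.HK.kc_eq T.M hcw hrw
    funext k
    have h2 : (T.cls (kw w) k).im = 0 := by
      unfold MarkT.cls
      rw [← h1]
      simp only [Matrix.mulVec, dotProduct, Matrix.map_apply]
      rw [Complex.im_sum]
      refine Finset.sum_eq_zero fun l _ => ?_
      rw [Complex.mul_im, Complex.ofReal_im, Complex.intCast_im]
      ring
    apply Complex.ext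
    · rw [Complex.ofReal_re]
      rfl
    · rw [Complex.ofReal_im, h2]
  have hss : bil B (T.cls (ts s)) (star (T.cls (ts s))) =
      bT S u (ts s) (cjs (ts s)) (kw w) / κ := by
    rw [← hcj, hbil _ _ hcs hcc]
  have hre : (bil B (T.cls (ts s)) (star (T.cls (ts s)))).re =
      (bT S u (ts s) (cjs (ts s)) (kw w)).re / κ := by
    rw [hss, Complex.div_ofReal_re]
  -- `B` is symmetric
  have hsym : B.IsSymm := by
    have h1 : ((T.J.map (Int.cast : ℤ → ℝ)).transpose * B * T.J.map (Int.cast : ℤ → ℝ)).transpose =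
        (T.J.map (Int.cast : ℤ → ℝ)).transpose * B * T.J.map (Int.cast : ℤ → ℝ) := by
      ext k l
      rw [Matrix.transpose_apply, ← T.form l k, ← T.form k l, bT_comm hd]
    have h2 : T.J.map (Int.cast : ℤ → ℝ) * T.J'.map (Int.cast : ℤ → ℝ) = 1 := by
      have h3 := congrArg (fun M : Matrix (Fin m) (Fin m) ℤ => M.map (Int.cast : ℤ → ℝ)) T.inv
      have h4 : (T.J * T.J').map (Int.cast : ℤ → ℝ) =
          T.J.map (Int.cast : ℤ → ℝ) * T.J'.map (Int.cast : ℤ → ℝ) := by
        ext i j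
        simp [Matrix.mul_apply]
      rw [← h4]
      simpa using h3
    have h3 : (T.J'.map (Int.cast : ℤ → ℝ)).transpose * (T.J.map (Int.cast : ℤ → ℝ)).transpose =
        1 := by
      rw [← Matrix.transpose_mul, h2, Matrix.transpose_one]
    have key : ∀ C : Matrix (Fin m) (Fin m) ℝ, (T.J'.map (Int.cast : ℤ → ℝ)).transpose *
        ((T.J.map (Int.cast : ℤ → ℝ)).transpose * C * T.J.map (Int.cast : ℤ → ℝ)) *
          T.J'.map (Int.cast : ℤ → ℝ) = C := by
      intro C
      calc _ = ((T.J'.map (Int.cast : ℤ → ℝ)).transpose *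
            (T.J.map (Int.cast : ℤ → ℝ)).transpose) * C *
              (T.J.map (Int.cast : ℤ → ℝ) * T.J'.map (Int.cast : ℤ → ℝ)) := by
            simp only [Matrix.mul_assoc]
        _ = C := by rw [h2, h3, Matrix.one_mul, Matrix.mul_one]
    have h5 : ((T.J.map (Int.cast : ℤ → ℝ)).transpose * B * T.J.map (Int.cast : ℤ → ℝ)).transpose =
        (T.J.map (Int.cast : ℤ → ℝ)).transpose * B.transpose * T.J.map (Int.cast : ℤ → ℝ) := by
      rw [Matrix.transpose_mul, Matrix.transpose_mul, Matrix.transpose_transpose, Matrix.mul_assoc]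
    rw [h5] at h1
    have h6 := congrArg (fun C => (T.J'.map (Int.cast : ℤ → ℝ)).transpose * C *
      T.J'.map (Int.cast : ℤ → ℝ)) h1
    simp only [key] at h6
    exact h6
  refine ⟨k3_of hsym T.unit ?_ ?_ ?_ ?_ ?_, hre⟩
  · rw [hbil _ _ hcs hcs, p1, zero_div]
  · rw [hkc, hbil _ _ hcs hcw, p2, zero_div]
  · rw [hre]
    exact div_pos p3 hκ
  · rw [hkc, hbil _ _ hcw hcw, Complex.div_ofReal_re]
    exact div_pos p0 hκ
  · intro x hxp hxw
    -- the form of `x`
    set y : Fin T.n → ℝ := fun k => ∑ l, (T.J' k l : ℝ) * x l with hy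
    have hcx := cl2_sum (fun k => ((y k : ℝ) : ℂ)) T.M.closed
    have hclx : T.M.cl (fun i z => ∑ k, ((y k : ℝ) : ℂ) • T.M.b k i z) =
        fun k => ((y k : ℝ) : ℂ) :=
      TS.cl_eq T.M hcx (TS.exact_congr TS.exact_zero fun i z _ => by
        ext u v
        simp only [sub_apply, sub_self, zero_apply])
    have hrx : Real2 S (fun i z => ∑ k, ((y k : ℝ) : ℂ) • T.M.b k i z) := by
      intro i z hz u v
      simp only [sum_apply, smul_apply, smul_eq_mul]
      rw [Complex.im_sum]
      refine Finset.sum_eq_zero fun k _ => ?_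
      rw [Complex.mul_im, T.M.real k i z hz u v]
      simp
    have hcls : T.cls (fun i z => ∑ k, ((y k : ℝ) : ℂ) • T.M.b k i z) = fun k => ((x k : ℝ) : ℂ) := by
      unfold MarkT.cls
      rw [hclx]
      have h1 : (fun k => ((y k : ℝ) : ℂ)) =
          (T.J'.map (Int.cast : ℤ → ℂ)).mulVec fun k => ((x k : ℝ) : ℂ) := by
        funext k
        simp only [hy, Matrix.mulVec, dotProduct, Matrix.map_apply]
        push_cast
        rfl
      have h2 : T.J.map (Int.cast : ℤ → ℂ) * T.J'.map (Int.cast : ℤ → ℂ) = 1 := by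
        have h3 := congrArg (fun M : Matrix (Fin m) (Fin m) ℤ => M.map (Int.cast : ℤ → ℂ)) T.inv
        have h4 : (T.J * T.J').map (Int.cast : ℤ → ℂ) =
            T.J.map (Int.cast : ℤ → ℂ) * T.J'.map (Int.cast : ℤ → ℂ) := by
          ext i j
          simp [Matrix.mul_apply]
        rw [← h4]
        simpa using h3
      rw [h1, Matrix.mulVec_mulVec, h2, Matrix.one_mulVec]
    have h1 : bT S u (fun i z => ∑ k, ((y k : ℝ) : ℂ) • T.M.b k i z) (kw w) (kw w) = 0 := by
      have h2 := hbil _ _ hcx hcw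
      rw [hcls, ← hkc, hxw] at h2
      have h3 := h2.symm
      rw [div_eq_zero_iff] at h3
      exact h3.resolve_right (by exact_mod_cast hκ.ne')
    have h2 : bT S u (fun i z => ∑ k, ((y k : ℝ) : ℂ) • T.M.b k i z) (ts s) (kw w) = 0 := by
      have h2 := hbil _ _ hcx hcs
      rw [hcls, hxp] at h2
      have h3 := h2.symm
      rw [div_eq_zero_iff] at h3
      exact h3.resolve_right (by exact_mod_cast hκ.ne')
    have h3 := hI a d E Γ S w u s _ had hw hg hcx hrx h1 h2
    have h4 := hbil _ _ hcx hcx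
    rw [hcls] at h4
    rw [h4, Complex.div_ofReal_re]
    exact div_nonpos_of_nonpos_of_nonneg h3 hκ.le

end Vale.Agent.P281.H594.HKT
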