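import Vale.Agent.P281.H834.HKT.Wedge
import Vale.Agent.P281.H83.HKT.Defs
import Vale.Agent.P281.H406.HK.Forms
import Vale.Agent.P281.H594.HK.Per0

/-!
# P281, T-HKT (helper594): the forms `θ_j` are closed and real
-/

open Set Filter Metric MeasureTheory Vale.Agent.P272.K
open scoped Topology ContDiff ComplexConjugate ComplexOrder

noncomputable section

namespace Vale.Agent.P281.H594.HKT

open Vale.Agent.P281.H64.TK Vale.Agent.P281.H64.TK.TS Vale.Agent.P281.H83.HK
open Vale.Agent.P281.H83.HKT
open Vale.Agent.P281.H834.HKT (wd1 wd1_apply Cl1 wd1_cl2 cda_clm)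
open Vale.Agent.P281.H702.TS (Tr_eq Tr_fderiv hol_smooth)
open Vale.Agent.P281.H406.HK (fderiv_hol)
open Vale.Agent.P281.H834.TS (fderiv_eval)

variable {a d : ℕ}

/-- The 1-form `∑ v_k dz_k`. -/
def r1 (v : Fin d → ℂ) : L1 d :=
  LinearMap.toContinuousLinearMap
    { toFun := fun x : Cm d => ∑ k, v k * x k
      map_add' := by
        intro x y
        simp only [Pi.add_apply, mul_add, Finset.sum_add_distrib]
      map_smul' := by
        intro c x
        simp only [Pi.smul_apply, Complex.real_smul, RingHom.id_apply, Finset.mul_sum]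
        exact Finset.sum_congr rfl fun k _ => by ring }

theorem r1_apply (v : Fin d → ℂ) (x : Cm d) : r1 v x = ∑ k, v k * x k := rfl

/-- The conjugate of a 1-form. -/
def cj1 (b : L1 d) : L1 d := Complex.conjCLE.toContinuousLinearMap.comp b

theorem cj1_apply (b : L1 d) (x : Cm d) : cj1 b x = conj (b x) := rfl

section
variable {E Γ : Type} [TopologicalSpace E] [Group Γ] [MulAction Γ E] {S : Sheets d E Γ}

/-- **The rows are closed 1-forms.** -/
theorem cl1_row {u : Fin S.N → Cm d → Matrix (Fin a) (Fin d) ℂ} (h : Hol1 S u) (j : Fin a) :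
    Cl1 S (fun i z => r1 (u i z j)) := by
  have hsm : ∀ i, ∀ z ∈ ball (0 : Cm d) 3, ContDiffAt ℝ ∞ (fun z => r1 (u i z j)) z := by
    intro i z hz
    refine cda_clm fun x => ?_
    simp only [r1_apply]
    exact ContDiffAt.sum fun k _ => (((hol_smooth (h.hol i j k)).contDiffAt
      (isOpen_ball.mem_nhds hz)).mul contDiffAt_const)
  refine ⟨⟨fun i z hz _ => hsm i z hz, ?_⟩, ?_⟩
  · intro i i' z hz z' hz' _ ψ hψ x
    obtain ⟨h0, h1, h2, h3, -⟩ := Tr_eq S hz hz' hψ
    have h4 := h.change i i' z hz z' hz' _ h2 h1 h3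
    simp only [r1_apply, h4, Tr_fderiv S hz hz' hψ x, Matrix.mul_apply, Finset.sum_mul,
      Finset.mul_sum]
    rw [Finset.sum_comm]
    exact Finset.sum_congr rfl fun l _ => Finset.sum_congr rfl fun k _ => by ring
  · intro i z hz x y
    have h1 : DifferentiableAt ℝ (fun z => r1 (u i z j)) z := (hsm i z hz).differentiableAt (by simp)
    have key : ∀ x y : Cm d, fderiv ℝ (fun z => r1 (u i z j)) z x y =
        ∑ k, ∑ l, dd l (fun z => u i z j k) z * (x l * y k) := by
      intro x y
      rw [← fderiv_eval h1]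
      have h2 : ∀ k, DifferentiableAt ℂ (fun z => u i z j k) z := fun k =>
        (h.hol i j k).differentiableAt (isOpen_ball.mem_nhds hz)
      have h3 : HasFDerivAt (fun z => r1 (u i z j) y)
          (∑ k, (y k) • fderiv ℝ (fun z => u i z j k) z) z := by
        have h4 : (fun z => r1 (u i z j) y) = fun z => ∑ k, u i z j k * y k := rfl
        rw [h4]
        refine HasFDerivAt.fun_sum fun k _ => ?_
        exact ((h2 k).hasFDerivAt.restrictScalars ℝ).differentiableAt.hasFDerivAt.mul_const _
      rw [h3.fderiv]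
      simp only [sum_apply, smul_apply, smul_eq_mul]
      refine Finset.sum_congr rfl fun k _ => ?_
      rw [fderiv_hol (h2 k), Finset.mul_sum]
      exact Finset.sum_congr rfl fun l _ => by ring
    show fderiv ℝ (fun z => r1 (u i z j)) z x y = fderiv ℝ (fun z => r1 (u i z j)) z y x
    rw [key, key, Finset.sum_comm]
    refine Finset.sum_congr rfl fun l _ => Finset.sum_congr rfl fun k _ => ?_
    rw [h.closed i z hz j k l]
    ring

/-- The conjugate of a closed form. -/
theorem cl1_conj {b : Fin S.N → Cm d → L1 d} (h : Cl1 S b) : Cl1 S (fun i z => cj1 (b i z)) := by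
  have hsm : ∀ i, ∀ z ∈ ball (0 : Cm d) 3, ContDiffAt ℝ ∞ (fun z => cj1 (b i z)) z := by
    intro i z hz
    exact contDiffAt_const.clm_comp (h.smooth i z hz (mem_univ _))
  refine ⟨⟨fun i z hz _ => hsm i z hz, ?_⟩, ?_⟩
  · intro i i' z hz z' hz' hV ψ hψ x
    rw [cj1_apply, cj1_apply, h.change i i' z hz z' hz' hV ψ hψ x]
  · intro i z hz x y
    have h1 : DifferentiableAt ℝ (b i) z := (h.smooth i z hz (mem_univ _)).differentiableAt (by simp)
    have key : ∀ x y : Cm d, fderiv ℝ (fun z => cj1 (b i z)) z x y = conj (fderiv ℝ (b i) z x y) := by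
      intro x y
      rw [← fderiv_eval ((hsm i z hz).differentiableAt (by simp))]
      have h2 : DifferentiableAt ℝ (fun z => b i z y) z := h1.clm_apply (differentiableAt_const y)
      have h3 := H406.HK.hasFDerivAt_conj h2.hasFDerivAt
      show fderiv ℝ (fun z => conj (b i z y)) z x = _
      rw [h3.fderiv]
      show conj (fderiv ℝ (fun z => b i z y) z x) = _
      rw [fderiv_eval h1]
    rw [key, key, h.closed i z hz x y]

/-- Multiples of closed forms. -/
theorem cl1_smul {b : Fin S.N → Cm d → L1 d} (c : ℂ) (h : Cl1 S b) :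
    Cl1 S (fun i z => c • b i z) := by
  have hsm : ∀ i, ∀ z ∈ ball (0 : Cm d) 3, ContDiffAt ℝ ∞ (fun z => c • b i z) z := by
    intro i z hz
    exact (h.smooth i z hz (mem_univ _)).const_smul c
  refine ⟨⟨fun i z hz _ => hsm i z hz, ?_⟩, ?_⟩
  · intro i i' z hz z' hz' hV ψ hψ x
    simp only [smul_apply, h.change i i' z hz z' hz' hV ψ hψ x]
  · intro i z hz x y
    have h1 : DifferentiableAt ℝ (b i) z := (h.smooth i z hz (mem_univ _)).differentiableAt (by simp)
    have key : ∀ x y : Cm d, fderiv ℝ (fun z => c • b i z) z x y = c * fderiv ℝ (b i) z x y := by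
      intro x y
      have h3 : HasFDerivAt (fun z => c • b i z) (c • fderiv ℝ (b i) z) z :=
        h1.hasFDerivAt.const_smul c
      rw [h3.fderiv]
      rfl
    rw [key, key, h.closed i z hz x y]

end

theorem kf_apply (w : Matrix (Fin d) (Fin d) ℂ) (u v : Cm d) :
    kf w u v = Complex.I / 2 * ∑ j, ∑ k, w j k * (u j * conj (v k) - v j * conj (u k)) := rfl

/-- `θ_j` as a product. -/
theorem thj_eq (u : Matrix (Fin a) (Fin d) ℂ) (j : Fin a) :
    thj u j = wd1 ((Complex.I / 2) • r1 (u j)) (cj1 (r1 (u j))) := by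
  have key : ∀ x y : Cm d, ∑ k, ∑ l, (u j k * conj (u j l)) * (x k * conj (y l)) =
      (∑ k, u j k * x k) * conj (∑ l, u j l * y l) := by
    intro x y
    rw [map_sum, Finset.sum_mul_sum]
    refine Finset.sum_congr rfl fun k _ => Finset.sum_congr rfl fun l _ => ?_
    rw [map_mul]
    ring
  ext x y
  rw [wd1_apply, thj, kf_apply]
  simp only [smul_apply, smul_eq_mul, cj1_apply, r1_apply, Matrix.of_apply, mul_sub,
    Finset.sum_sub_distrib, key]
  ring

section
variable {E Γ : Type} [TopologicalSpace E] [Group Γ] [MulAction Γ E] {S : Sheets d E Γ}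

/-- **The form `θ_j` is closed.** -/
theorem thj_cl2 {u : Fin S.N → Cm d → Matrix (Fin a) (Fin d) ℂ} (h : Hol1 S u) (j : Fin a) :
    Cl2 S (fun i z => thj (u i z) j) := by
  simp only [thj_eq]
  exact wd1_cl2 (cl1_smul _ (cl1_row h j)) (cl1_conj (cl1_row h j))

theorem thj_im (u : Matrix (Fin a) (Fin d) ℂ) (j : Fin a) (x y : Cm d) : (thj u j x y).im = 0 := by
  rw [thj_eq, wd1_apply]
  simp only [smul_apply, smul_eq_mul, cj1_apply, Complex.sub_im, Complex.mul_im, Complex.mul_re,
    Complex.conj_re, Complex.conj_im, Complex.I_re, Complex.I_im, Complex.div_ofNat_re,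
    Complex.div_ofNat_im]
  ring

/-- It is real. -/
theorem thj_real {u : Fin S.N → Cm d → Matrix (Fin a) (Fin d) ℂ} (j : Fin a) :
    Real2 S (fun i z => thj (u i z) j) := fun _ _ _ _ _ => thj_im _ _ _ _

end

end Vale.Agent.P281.H594.HKT
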